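import Vale.Agent.P236C.EvX
import Vale.Agent.P236C.D.K
import Vale.Agent.P236C.D.U10_0
import Vale.Agent.P236N.Dt.All

noncomputable section

namespace Vale.Agent.P236C.D

theorem cv10_0_0 : evK k11_0 q11_0 b11_0 (nat_lit 0) (nat_lit 9) ds10 ds11 u10_0
    (takeL (nat_lit 738) (P236N.Dt.D.allC 10)) = true := by
  decide +kernel

end Vale.Agent.P236C.D

end
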