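import Vale.Agent.P236C.EvX
import Vale.Agent.P236C.D.K
import Vale.Agent.P236C.D.U10_1
import Vale.Agent.P236N.Dt.All

noncomputable section

namespace Vale.Agent.P236C.D

theorem cv10_1_0 : evK k11_1 q11_1 b11_1 (nat_lit 9) (nat_lit 44) ds10 ds11 u10_1
    (takeL (nat_lit 738) (P236N.Dt.D.allC 10)) = true := by
  decide +kernel

end Vale.Agent.P236C.D

end
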