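import Vale.Agent.P236C.EvX
import Vale.Agent.P236C.D.K
import Vale.Agent.P236C.D.U11_1
import Vale.Agent.P236N.Dt.All

noncomputable section

namespace Vale.Agent.P236C.D

theorem cv11_1_1 : evK k12_1 q12_1 b12_1 (nat_lit 8) (nat_lit 40) ds11 ds12 u11_1
    (takeL (nat_lit 546) (dropL (nat_lit 781) (P236N.Dt.D.allC 11))) = true := by
  decide +kernel

end Vale.Agent.P236C.D

end
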