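import Vale.Agent.P236C.EvX
import Vale.Agent.P236C.D.K
import Vale.Agent.P236C.D.U12_1
import Vale.Agent.P236N.Dt.All

noncomputable section

namespace Vale.Agent.P236C.D

theorem cv12_1_1 : evK k13_1 q13_1 b13_1 (nat_lit 7) (nat_lit 34) ds12 ds13 u12_1
    (takeL (nat_lit 553) (dropL (nat_lit 770) (P236N.Dt.D.allC 12))) = true := by
  decide +kernel

end Vale.Agent.P236C.D

end
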