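import Vale.Agent.P236C.EvX
import Vale.Agent.P236C.D.K
import Vale.Agent.P236C.D.U13_0
import Vale.Agent.P236N.Dt.All

noncomputable section

namespace Vale.Agent.P236C.D

theorem cv13_0_1 : evK k14_0 q14_0 b14_0 (nat_lit 0) (nat_lit 7) ds13 ds14 u13_0
    (takeL (nat_lit 493) (dropL (nat_lit 717) (P236N.Dt.D.allC 13))) = true := by
  decide +kernel

end Vale.Agent.P236C.D

end
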