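import Vale.Agent.P236C.EvX
import Vale.Agent.P236C.D.K
import Vale.Agent.P236C.D.U13_1
import Vale.Agent.P236N.Dt.All

noncomputable section

namespace Vale.Agent.P236C.D

theorem cv13_1_0 : evK k14_1 q14_1 b14_1 (nat_lit 7) (nat_lit 32) ds13 ds14 u13_1
    (takeL (nat_lit 717) (P236N.Dt.D.allC 13)) = true := by
  decide +kernel

end Vale.Agent.P236C.D

end
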