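import Vale.Agent.P236C.EvX
import Vale.Agent.P236C.D.K
import Vale.Agent.P236C.D.U14_0
import Vale.Agent.P236N.Dt.All

noncomputable section

namespace Vale.Agent.P236C.D

theorem cv14_0_0 : evK k15_0 q15_0 b15_0 (nat_lit 0) (nat_lit 7) ds14 ds15 u14_0
    (takeL (nat_lit 701) (P236N.Dt.D.allC 14)) = true := by
  decide +kernel

end Vale.Agent.P236C.D

end
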