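import Vale.Agent.P236C.EvX
import Vale.Agent.P236C.D.K
import Vale.Agent.P236C.D.U2_1
import Vale.Agent.P236N.Dt.All

noncomputable section

namespace Vale.Agent.P236C.D

theorem cv2_1_1 : evK k3_1 q3_1 b3_1 (nat_lit 8) (nat_lit 31) ds2 ds3 u2_1
    (dropL (nat_lit 594) (P236N.Dt.D.allC 2)) = true := by
  decide +kernel

end Vale.Agent.P236C.D

end
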