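import Vale.Agent.P236C.EvX
import Vale.Agent.P236C.D.K
import Vale.Agent.P236C.D.U26_0
import Vale.Agent.P236N.Dt.All

noncomputable section

namespace Vale.Agent.P236C.D

theorem cv26_0_0 : evK k27_0 q27_0 b27_0 (nat_lit 0) (nat_lit 21) ds26 ds27 u26_0
    (P236N.Dt.D.allC 26) = true := by
  decide +kernel

end Vale.Agent.P236C.D

end
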