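import Vale.Agent.P236C.EvX
import Vale.Agent.P236C.D.K
import Vale.Agent.P236C.D.U28_0
import Vale.Agent.P236N.Dt.All

noncomputable section

namespace Vale.Agent.P236C.D

theorem cv28_0_0 : evK k29_0 q29_0 b29_0 (nat_lit 0) (nat_lit 19) ds28 ds29 u28_0
    (P236N.Dt.D.allC 28) = true := by
  decide +kernel

end Vale.Agent.P236C.D

end
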