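import Vale.Agent.P236C.EvX
import Vale.Agent.P236C.D.K
import Vale.Agent.P236C.D.U4_1
import Vale.Agent.P236N.Dt.All

noncomputable section

namespace Vale.Agent.P236C.D

theorem cv4_1_0 : evK k5_1 q5_1 b5_1 (nat_lit 10) (nat_lit 45) ds4 ds5 u4_1
    (takeL (nat_lit 763) (P236N.Dt.D.allC 4)) = true := by
  decide +kernel

end Vale.Agent.P236C.D

end
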