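import Vale.Agent.P236C.EvX
import Vale.Agent.P236C.D.K
import Vale.Agent.P236C.D.U5_0
import Vale.Agent.P236N.Dt.All

noncomputable section

namespace Vale.Agent.P236C.D

theorem cv5_0_0 : evK k6_0 q6_0 b6_0 (nat_lit 0) (nat_lit 10) ds5 ds6 u5_0
    (takeL (nat_lit 809) (P236N.Dt.D.allC 5)) = true := by
  decide +kernel

end Vale.Agent.P236C.D

end
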