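import Vale.Agent.P236C.EvX
import Vale.Agent.P236C.D.K
import Vale.Agent.P236C.D.U5_1
import Vale.Agent.P236N.Dt.All

noncomputable section

namespace Vale.Agent.P236C.D

theorem cv5_1_1 : evK k6_1 q6_1 b6_1 (nat_lit 10) (nat_lit 44) ds5 ds6 u5_1
    (takeL (nat_lit 449) (dropL (nat_lit 809) (P236N.Dt.D.allC 5))) = true := by
  decide +kernel

end Vale.Agent.P236C.D

end
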