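import Vale.Agent.P236C.EvX
import Vale.Agent.P236C.D.K
import Vale.Agent.P236C.D.U7_0
import Vale.Agent.P236N.Dt.All

noncomputable section

namespace Vale.Agent.P236C.D

theorem cv7_0_2 : evK k8_0 q8_0 b8_0 (nat_lit 0) (nat_lit 8) ds7 ds8 u7_0
    (dropL (nat_lit 472) (dropL (nat_lit 770) (P236N.Dt.D.allC 7))) = true := by
  decide +kernel

end Vale.Agent.P236C.D

end
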