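import Vale.Agent.P236C.EvX
import Vale.Agent.P236C.D.K
import Vale.Agent.P236C.D.U7_1
import Vale.Agent.P236N.Dt.All

noncomputable section

namespace Vale.Agent.P236C.D

theorem cv7_1_0 : evK k8_1 q8_1 b8_1 (nat_lit 8) (nat_lit 40) ds7 ds8 u7_1
    (takeL (nat_lit 770) (P236N.Dt.D.allC 7)) = true := by
  decide +kernel

end Vale.Agent.P236C.D

end
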