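import Vale.Agent.P236C.EvX
import Vale.Agent.P236C.D.K
import Vale.Agent.P236C.D.U9_1
import Vale.Agent.P236N.Dt.All

noncomputable section

namespace Vale.Agent.P236C.D

theorem cv9_1_2 : evK k10_1 q10_1 b10_1 (nat_lit 9) (nat_lit 44) ds9 ds10 u9_1
    (dropL (nat_lit 615) (dropL (nat_lit 848) (P236N.Dt.D.allC 9))) = true := by
  decide +kernel

end Vale.Agent.P236C.D

end
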