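import Vale.Agent.P236C.EvX
import Vale.Agent.P236C.D.K
import Vale.Agent.P236C.D.U0_1
import Vale.Agent.P236N.Dt.All

noncomputable section

namespace Vale.Agent.P236C.D

theorem cv0_1_0 : evK k1_1 q1_1 b1_1 (nat_lit 2) (nat_lit 5) ds0 ds1 u0_1
    (P236N.Dt.D.allC 0) = true := by
  decide +kernel

end Vale.Agent.P236C.D

end
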