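import Vale.Agent.P236C.EvX
import Vale.Agent.P236C.D.K
import Vale.Agent.P236C.D.U16_0
import Vale.Agent.P236N.Dt.All

noncomputable section

namespace Vale.Agent.P236C.D

theorem cv16_0_1 : evK k17_0 q17_0 b17_0 (nat_lit 0) (nat_lit 24) ds16 ds17 u16_0
    (takeL (nat_lit 456) (dropL (nat_lit 678) (P236N.Dt.D.allC 16))) = true := by
  decide +kernel

end Vale.Agent.P236C.D

end
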